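import Vale.Agent.P247.Bdl.B1

/-!
# P247, package LA: pointwise algebra of a pair of two-covectors
-/

open scoped ContDiff

noncomputable section

namespace Vale.Agent.P247.LA

open Vale.Agent.P247

/-- the skew matrix of a two-covector -/
def sm (a : V6) : Matrix (Fin 4) (Fin 4) ℝ :=
  !![0, a 0, a 1, a 2; -a 0, 0, a 3, a 4; -a 1, -a 3, 0, a 5; -a 2, -a 4, -a 5, 0]

/-- the dual skew matrix -/
def hs (a : V6) : Matrix (Fin 4) (Fin 4) ℝ :=
  !![0, -a 5, a 4, -a 3; a 5, 0, -a 2, a 1; -a 4, a 2, 0, -a 0; a 3, -a 1, a 0, 0]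

/-- the commutator-like product -/
def Nm (a b : V6) : Matrix (Fin 4) (Fin 4) ℝ := hs a * sm b - hs b * sm a

theorem sm_mul_Nm (a b : V6) : sm a * Nm a b = B a a • sm b - B a b • sm a := by
  ext i j
  fin_cases i <;> fin_cases j <;>
    simp [Nm, sm, hs, B, Matrix.mul_apply, Fin.sum_univ_four, Matrix.sub_apply] <;> ring

theorem sm_mul_Nm' (a b : V6) : sm b * Nm a b = B a b • sm b - B b b • sm a := by
  ext i j
  fin_cases i <;> fin_cases j <;>
    simp [Nm, sm, hs, B, Matrix.mul_apply, Fin.sum_univ_four, Matrix.sub_apply] <;> ring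

theorem comp_eq_sm (α : Form2) (i j : Fin 4) : comp α i j = sm (coord α) i j := by
  have h : coord α = ![comp α 0 1, comp α 0 2, comp α 0 3, comp α 1 2, comp α 1 3, comp α 2 3] :=
    rfl
  rw [h]
  fin_cases i <;> fin_cases j <;>
    simp [sm, comp_swap α 0 1, comp_swap α 0 2, comp_swap α 0 3,
      comp_swap α 1 2, comp_swap α 1 3, comp_swap α 2 3]

theorem apply_eq_sm (α : Form2) (u v : R4) :
    α ![u, v] = ∑ i, ∑ j, u i * v j * sm (coord α) i j := by
  rw [apply_eq]
  simp only [comp_eq_sm]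

/-- the continuous linear map with a given matrix -/
def mcl (m : Matrix (Fin 4) (Fin 4) ℝ) : R4 →L[ℝ] R4 :=
  ∑ i, ∑ j, m i j • (ContinuousLinearMap.proj j : R4 →L[ℝ] ℝ).smulRight (e i)

theorem mcl_apply (m : Matrix (Fin 4) (Fin 4) ℝ) (u : R4) (i : Fin 4) :
    mcl m u i = ∑ j, m i j * u j := by
  simp only [mcl, _root_.sum_apply, _root_.smul_apply,
    ContinuousLinearMap.smulRight_apply, ContinuousLinearMap.proj_apply, Finset.sum_apply,
    Pi.smul_apply, smul_eq_mul, e, Pi.single_apply]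
  rw [Finset.sum_eq_single i]
  · simp
  · intro k _ hk
    simp [Ne.symm hk]
  · simp

theorem mcl_mulVec (m : Matrix (Fin 4) (Fin 4) ℝ) (u : R4) : mcl m u = m.mulVec u := by
  funext i
  rw [mcl_apply]
  rfl

theorem apply_dot (α : Form2) (u v : R4) :
    α ![u, v] = u ⬝ᵥ (sm (coord α)).mulVec v := by
  rw [apply_eq_sm]
  simp only [dotProduct, Matrix.mulVec, Finset.mul_sum]
  refine Finset.sum_congr rfl fun i _ => Finset.sum_congr rfl fun j _ => ?_
  ring

/-- `α (u, N v)` -/
theorem apply_N (α β : Form2) (r : ℝ) (u v : R4) :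
    α ![u, mcl (r • Nm (coord α) (coord β)) v] =
      (-(r * B (coord α) (coord β))) * α ![u, v] + (r * B (coord α) (coord α)) * β ![u, v] := by
  rw [apply_dot, mcl_mulVec, Matrix.mulVec_mulVec, Matrix.mul_smul, sm_mul_Nm, apply_dot,
    apply_dot, Matrix.smul_mulVec, Matrix.sub_mulVec, Matrix.smul_mulVec, Matrix.smul_mulVec,
    dotProduct_smul, dotProduct_sub, dotProduct_smul, dotProduct_smul]
  simp only [smul_eq_mul]
  ring

theorem apply_N' (α β : Form2) (r : ℝ) (u v : R4) :
    β ![u, mcl (r • Nm (coord α) (coord β)) v] =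
      (-(r * B (coord β) (coord β))) * α ![u, v] + (r * B (coord α) (coord β)) * β ![u, v] := by
  rw [apply_dot, mcl_mulVec, Matrix.mulVec_mulVec, Matrix.mul_smul, sm_mul_Nm', apply_dot,
    apply_dot, Matrix.smul_mulVec, Matrix.sub_mulVec, Matrix.smul_mulVec, Matrix.smul_mulVec,
    dotProduct_smul, dotProduct_sub, dotProduct_smul, dotProduct_smul]
  simp only [smul_eq_mul]
  ring

/-- a degenerate two-covector has zero square -/
theorem degen {α : Form2} {u : R4} (hu : u ≠ 0) (h : ∀ z, α ![u, z] = 0) : wedge α α = 0 := by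
  have hk : ∀ k, ∑ i, u i * sm (coord α) i k = 0 := by
    intro k
    have h1 := h (e k)
    rw [apply_eq_sm] at h1
    rw [← h1]
    refine Finset.sum_congr rfl fun i _ => ?_
    rw [Finset.sum_eq_single k]
    · simp [e]
    · intro j _ hj
      simp [e, hj]
    · simp
  have h0 := hk 0
  have h1 := hk 1
  have h2 := hk 2
  have h3 := hk 3
  rw [wedge_eq_B]
  generalize coord α = a at h0 h1 h2 h3 ⊢
  simp [Fin.sum_univ_four, sm] at h0 h1 h2 h3
  by_contra hB
  apply hu
  have hh : ∀ i, u i = 0 := by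
    intro i
    have h4 : B a a * u i = 0 := by
      fin_cases i
      · simp only [B]; simp only [Fin.zero_eta]
        linear_combination 2 * (a 5 * h1 - a 4 * h2 + a 3 * h3)
      · simp only [B]; simp only [Fin.mk_one]
        linear_combination 2 * (-a 5 * h0 + a 2 * h2 - a 1 * h3)
      · simp only [B]; simp only [Fin.reduceFinMk]
        linear_combination 2 * (a 4 * h0 - a 2 * h1 + a 0 * h3)
      · simp only [B]; simp only [Fin.reduceFinMk]
        linear_combination 2 * (-a 3 * h0 + a 1 * h1 - a 0 * h2)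
    rcases mul_eq_zero.1 h4 with h5 | h5
    · exact absurd h5 hB
    · exact h5
  funext i
  exact hh i

end Vale.Agent.P247.LA
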