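import Vale.Agent.P247.H74.LA.Alg

/-!
# P247, package LA: the common kernel of two functionals
-/

open scoped ContDiff

noncomputable section

namespace Vale.Agent.P247.LA

open Vale.Agent.P247

/-- dual vectors of two independent functionals -/
theorem dual_pair (l0 l1 : R4 →L[ℝ] ℝ)
    (h : ∀ s t : ℝ, (∀ z, s * l0 z + t * l1 z = 0) → s = 0 ∧ t = 0) :
    ∃ p q : R4, l0 p = 1 ∧ l1 p = 0 ∧ l0 q = 0 ∧ l1 q = 1 := by
  have h0 : ∃ p0, l0 p0 ≠ 0 := by
    by_contra hc
    push Not at hc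
    have := (h 1 0 (fun z => by rw [hc z]; ring)).1
    exact one_ne_zero this
  obtain ⟨p0, hp0⟩ := h0
  have h1 : ∃ q0, l1 q0 * l0 p0 - l1 p0 * l0 q0 ≠ 0 := by
    by_contra hc
    push Not at hc
    have := (h (-l1 p0) (l0 p0) (fun z => by linear_combination hc z)).2
    exact hp0 this
  obtain ⟨q0, hq0⟩ := h1
  set r := l1 q0 * l0 p0 - l1 p0 * l0 q0 with hr
  refine ⟨(l1 q0 / r) • p0 - (l1 p0 / r) • q0, (l0 p0 / r) • q0 - (l0 q0 / r) • p0, ?_, ?_, ?_, ?_⟩
  · simp only [map_sub, map_smul, smul_eq_mul]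
    field_simp
    rw [hr]
  · simp only [map_sub, map_smul, smul_eq_mul]
    field_simp
    ring
  · simp only [map_sub, map_smul, smul_eq_mul]
    field_simp
    ring
  · simp only [map_sub, map_smul, smul_eq_mul]
    field_simp
    rw [hr]; ring

/-- two independent vectors of the common kernel span it -/
theorem ker_span (l0 l1 : R4 →L[ℝ] ℝ) {p q : R4} (h1 : l0 p = 1) (h2 : l1 p = 0)
    (h3 : l0 q = 0) (h4 : l1 q = 1) {u w : R4} (hu0 : l0 u = 0) (hu1 : l1 u = 0)
    (hw0 : l0 w = 0) (hw1 : l1 w = 0)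
    (huw : ∀ s t : ℝ, s • u + t • w = 0 → s = 0 ∧ t = 0)
    {v : R4} (hv0 : l0 v = 0) (hv1 : l1 v = 0) : ∃ a b : ℝ, v = a • u + b • w := by
  -- the vectors u, w, p, q are a basis
  have hli : LinearIndependent ℝ ![u, w, p, q] := by
    rw [Fintype.linearIndependent_iff]
    intro g hg
    rw [Fin.sum_univ_four] at hg
    simp only [Matrix.cons_val_zero, Matrix.cons_val_one, Matrix.cons_val] at hg
    have e0 := congrArg l0 hg
    have e1 := congrArg l1 hg
    simp only [map_add, map_smul, smul_eq_mul, hu0, hw0, h1, h3, hu1, hw1, h2, h4, map_zero]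
      at e0 e1
    have g2 : g 2 = 0 := by linarith
    have g3 : g 3 = 0 := by linarith
    rw [g2, g3] at hg
    obtain ⟨g0, g1⟩ := huw (g 0) (g 1) (by simpa using hg)
    intro i
    fin_cases i
    · exact g0
    · exact g1
    · exact g2
    · exact g3
  have hspan := hli.span_eq_top_of_card_eq_finrank (by simp)
  have hv : v ∈ Submodule.span ℝ (Set.range ![u, w, p, q]) := by
    rw [hspan]; trivial
  rw [Submodule.mem_span_range_iff_exists_fun] at hv
  obtain ⟨c, hc⟩ := hv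
  rw [Fin.sum_univ_four] at hc
  simp only [Matrix.cons_val_zero, Matrix.cons_val_one, Matrix.cons_val] at hc
  have e0 := congrArg l0 hc
  have e1 := congrArg l1 hc
  simp only [map_add, map_smul, smul_eq_mul, hu0, hw0, h1, h3, hu1, hw1, h2, h4, hv0, hv1]
    at e0 e1
  have g2 : c 2 = 0 := by linarith
  have g3 : c 3 = 0 := by linarith
  refine ⟨c 0, c 1, ?_⟩
  rw [g2, g3] at hc
  rw [← hc]
  simp

/-- the bilinear form of a two-covector -/
def bil (α : Form2) : R4 →L[ℝ] R4 →L[ℝ] ℝ :=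
  ∑ i, ∑ j, comp α i j • (ContinuousLinearMap.proj i : R4 →L[ℝ] ℝ).smulRight
    (ContinuousLinearMap.proj j : R4 →L[ℝ] ℝ)

theorem bil_apply (α : Form2) (u v : R4) : bil α u v = α ![u, v] := by
  rw [apply_eq]
  simp only [bil, _root_.sum_apply, _root_.smul_apply,
    ContinuousLinearMap.smulRight_apply, ContinuousLinearMap.proj_apply, smul_eq_mul]
  refine Finset.sum_congr rfl fun i _ => Finset.sum_congr rfl fun j _ => ?_
  ring

/-- a linear functional from a one-covector -/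
def lin1 : Form1 →L[ℝ] (R4 →L[ℝ] ℝ) :=
  ∑ i, (evalL ![e i]).smulRight (ContinuousLinearMap.proj i : R4 →L[ℝ] ℝ)

theorem lin1_apply (a : Form1) (v : R4) : lin1 a v = a ![v] := by
  rw [form1_apply]
  simp only [lin1, _root_.sum_apply,
    ContinuousLinearMap.smulRight_apply, ContinuousLinearMap.proj_apply, _root_.smul_apply,
    smul_eq_mul]
  refine Finset.sum_congr rfl fun i _ => ?_
  have : (evalL ![e i]) a = a ![e i] := rfl
  rw [this]
  ring

/-- pair data: `J` for a pair of two-covectors -/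
structure PairJ (α β : Form2) (J : R4 →L[ℝ] R4) (c : Fin 2 → Fin 2 → ℝ) : Prop where
  h0 : ∀ u v, α ![u, J v] = c 0 0 * α ![u, v] + c 0 1 * β ![u, v]
  h1 : ∀ u v, β ![u, J v] = c 1 0 * α ![u, v] + c 1 1 * β ![u, v]
  c2 : ∀ j l, ∑ k, c j k * c k l = if j = l then -1 else 0

theorem nondeg {α : Form2} (h : wedge α α ≠ 0) {w : R4} (hw : ∀ u, α ![u, w] = 0) : w = 0 := by
  by_contra hne
  exact h (degen hne fun z => by rw [apply_swap, hw, neg_zero])

theorem PairJ.sq {α β : Form2} {J : R4 →L[ℝ] R4} {c : Fin 2 → Fin 2 → ℝ} (h : PairJ α β J c)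
    (hα : wedge α α ≠ 0) (u : R4) : J (J u) = -u := by
  have h1 : J (J u) + u = 0 := by
    refine nondeg hα fun z => ?_
    rw [← bil_apply, map_add, bil_apply, bil_apply, h.h0, h.h0, h.h1]
    have c00 := h.c2 0 0
    have c01 := h.c2 0 1
    simp only [Fin.sum_univ_two, if_pos, Fin.zero_eq_one_iff, OfNat.ofNat_ne_one, if_false] at c00 c01
    linear_combination (α ![z, u]) * c00 + (β ![z, u]) * c01
  exact eq_neg_of_add_eq_zero_left h1

theorem PairJ.indep {α β : Form2} {J : R4 →L[ℝ] R4} {c : Fin 2 → Fin 2 → ℝ} (h : PairJ α β J c)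
    (hα : wedge α α ≠ 0) {u : R4} (hu : u ≠ 0) (s t : ℝ) (hst : s • u + t • J u = 0) :
    s = 0 ∧ t = 0 := by
  have h1 : s • J u - t • u = 0 := by
    have := congrArg J hst
    rw [map_add, map_smul, map_smul, h.sq hα, map_zero, smul_neg] at this
    rw [← this]; abel
  have h2 : (s ^ 2 + t ^ 2) • u = 0 := by
    have : (s ^ 2 + t ^ 2) • u = s • (s • u + t • J u) - t • (s • J u - t • u) := by
      module
    rw [this, hst, h1]; simp
  have h3 : s ^ 2 + t ^ 2 = 0 := by
    rcases smul_eq_zero.1 h2 with h4 | h4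
    · exact h4
    · exact absurd h4 hu
  constructor <;> nlinarith [sq_nonneg s, sq_nonneg t]

/-- the pair is definite -/
def PP (α β : Form2) : Prop := ∀ s t : ℝ, (s ≠ 0 ∨ t ≠ 0) → wedge (s • α + t • β) (s • α + t • β) ≠ 0

theorem PP.left {α β : Form2} (h : PP α β) : wedge α α ≠ 0 := by
  have := h 1 0 (Or.inl one_ne_zero)
  simpa using this

theorem PP.dual {α β : Form2} (h : PP α β) {u : R4} (hu : u ≠ 0) :
    ∃ p q : R4, bil α u p = 1 ∧ bil β u p = 0 ∧ bil α u q = 0 ∧ bil β u q = 1 := by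
  refine dual_pair _ _ fun s t hst => ?_
  by_contra hc
  have hc' : s ≠ 0 ∨ t ≠ 0 := by
    by_contra h2
    push Not at h2
    exact hc h2
  refine h s t hc' (degen hu fun z => ?_)
  have h2 := hst z
  rw [bil_apply, bil_apply] at h2
  exact h2

theorem PairJ.self0 {α β : Form2} {J : R4 →L[ℝ] R4} {c : Fin 2 → Fin 2 → ℝ} (h : PairJ α β J c)
    (u : R4) : α ![u, J u] = 0 := by
  rw [h.h0, apply_self, apply_self]; ring

theorem PairJ.self1 {α β : Form2} {J : R4 →L[ℝ] R4} {c : Fin 2 → Fin 2 → ℝ} (h : PairJ α β J c)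
    (u : R4) : β ![u, J u] = 0 := by
  rw [h.h1, apply_self, apply_self]; ring

theorem PairJ.nd {α β : Form2} {J : R4 →L[ℝ] R4} {c : Fin 2 → Fin 2 → ℝ} (h : PairJ α β J c)
    (hP : PP α β) {u v : R4} (hu : u ≠ 0) (h0 : α ![u, v] = 0) (h1 : β ![u, v] = 0) :
    ∃ a b : ℝ, v = a • u + b • J u := by
  obtain ⟨p, q, e1, e2, e3, e4⟩ := hP.dual hu
  refine ker_span (bil α u) (bil β u) e1 e2 e3 e4 ?_ ?_ ?_ ?_ (h.indep hP.left hu) ?_ ?_
  · rw [bil_apply, apply_self]
  · rw [bil_apply, apply_self]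
  · rw [bil_apply, h.self0]
  · rw [bil_apply, h.self1]
  · rw [bil_apply, h0]
  · rw [bil_apply, h1]

/-- a third form completing the pair to a definite triple tames `J` up to sign -/
theorem PairJ.tame {α β δ : Form2} {J : R4 →L[ℝ] R4} {c : Fin 2 → Fin 2 → ℝ}
    (h : PairJ α β J c) (hP : PP α β)
    (hδ : ∀ s t : ℝ, wedge (s • α + t • β + δ) (s • α + t • β + δ) ≠ 0)
    {u : R4} (hu : u ≠ 0) : δ ![u, J u] ≠ 0 := by
  intro h2
  obtain ⟨p, q, e1, e2, e3, e4⟩ := hP.dual hu
  refine hδ (-(bil δ u p)) (-(bil δ u q)) (degen hu fun z => ?_)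
  -- decompose z
  have hz : ∃ a b : ℝ, z - (bil α u z) • p - (bil β u z) • q = a • u + b • J u := by
    refine h.nd hP hu ?_ ?_
    · rw [← bil_apply, map_sub, map_sub, map_smul, map_smul, e1, e3]
      simp
    · rw [← bil_apply, map_sub, map_sub, map_smul, map_smul, e2, e4]
      simp
  obtain ⟨a, b, hab⟩ := hz
  have h3 := congrArg (bil δ u) hab
  rw [map_sub, map_sub, map_smul, map_smul, map_add, map_smul, map_smul, bil_apply δ u u,
    apply_self, bil_apply δ u (J u), h2] at h3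
  have h4 : (-(bil δ u p) • α + -(bil δ u q) • β + δ) ![u, z] =
      -(bil δ u p) * α ![u, z] + -(bil δ u q) * β ![u, z] + δ ![u, z] := rfl
  rw [h4, ← bil_apply α u z, ← bil_apply β u z, ← bil_apply δ u z]
  simp only [smul_eq_mul] at h3
  linear_combination h3

end Vale.Agent.P247.LA
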