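import Vale.Agent.P247.H74.LA.Torus

/-!
# P247, package LA
-/

open scoped ContDiff
open Set MeasureTheory Filter Topology

noncomputable section

namespace Vale.Agent.P247.LA

open Vale.Agent.P247

theorem sp_hs {a : R4 → V6} (ha : SP a) (i j : Fin 4) : SP (fun x => hs (a x) i j) := by
  fin_cases i <;> fin_cases j <;>
    first
    | exact SP.const 0
    | exact ha.proj _
    | exact (ha.proj _).neg

theorem sp_sm {a : R4 → V6} (ha : SP a) (i j : Fin 4) : SP (fun x => sm (a x) i j) := by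
  fin_cases i <;> fin_cases j <;>
    first
    | exact SP.const 0
    | exact ha.proj _
    | exact (ha.proj _).neg

theorem sp_Nm {a b : R4 → V6} (ha : SP a) (hb : SP b) (i j : Fin 4) :
    SP (fun x => Nm (a x) (b x) i j) := by
  have : (fun x => Nm (a x) (b x) i j) = fun x =>
      ∑ k, hs (a x) i k * sm (b x) k j - ∑ k, hs (b x) i k * sm (a x) k j := by
    funext x
    simp only [Nm, Matrix.sub_apply, Matrix.mul_apply]
  rw [this]
  exact (SP.sum fun k _ => (sp_hs ha i k).mul (sp_sm hb k j)).sub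
    (SP.sum fun k _ => (sp_hs hb i k).mul (sp_sm ha k j))

theorem sp_mcl {m : R4 → Matrix (Fin 4) (Fin 4) ℝ} (h : ∀ i j, SP (fun x => m x i j)) :
    SP (fun x => mcl (m x)) :=
  SP.sum fun i _ => SP.sum fun j _ => (h i j).smul (SP.const _)

theorem SP.sqrt' {f : R4 → ℝ} (hf : SP f) (h : ∀ x, 0 < f x) : SP (fun x => √(f x)) :=
  ⟨hf.1.sqrt fun x => (h x).ne', fun n x => by simp only [hf.2 n x]⟩

theorem sp_B {a b : R4 → V6} (ha : SP a) (hb : SP b) : SP (fun x => B (a x) (b x)) :=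
  ((((((ha.proj 0).mul (hb.proj 5)).sub ((ha.proj 1).mul (hb.proj 4))).add
    ((ha.proj 2).mul (hb.proj 3))).add ((ha.proj 3).mul (hb.proj 2))).sub
    ((ha.proj 4).mul (hb.proj 1))).add ((ha.proj 5).mul (hb.proj 0))

/-- the scale factor -/
def rr (a b : V6) : ℝ := 1 / √(gd a b)

theorem rr_sq {a b : V6} (h : 0 < gd a b) : rr a b ^ 2 * gd a b = 1 := by
  rw [rr, div_pow, one_pow, Real.sq_sqrt h.le]
  field_simp

theorem sp_rr {a b : R4 → V6} (ha : SP a) (hb : SP b) (h : ∀ x, 0 < gd (a x) (b x)) :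
    SP (fun x => rr (a x) (b x)) := by
  have hg : SP (fun x => gd (a x) (b x)) := by
    have : (fun x => gd (a x) (b x)) = fun x =>
        B (a x) (a x) * B (b x) (b x) - B (a x) (b x) * B (a x) (b x) := by
      funext x; simp only [gd]; ring
    rw [this]
    exact ((sp_B ha ha).mul (sp_B hb hb)).sub ((sp_B ha hb).mul (sp_B ha hb))
  exact (SP.const (1 : ℝ)).div (SP.sqrt' hg h) fun x => (Real.sqrt_pos.2 (h x)).ne'

/-- the matrix of `J` on the pair -/
def cm2 (a b : V6) : Fin 2 → Fin 2 → ℝ :=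
  ![![-(rr a b * B a b), rr a b * B a a], ![-(rr a b * B b b), rr a b * B a b]]

/-- the almost complex structure of the pair -/
def JJ (α β : Form2) : R4 →L[ℝ] R4 :=
  mcl (rr (coord α) (coord β) • Nm (coord α) (coord β))

theorem pairJ {α β : Form2} (h : 0 < gd (coord α) (coord β)) :
    PairJ α β (JJ α β) (cm2 (coord α) (coord β)) := by
  refine ⟨fun u v => ?_, fun u v => ?_, fun j l => ?_⟩
  · exact apply_N α β _ u v
  · exact apply_N' α β _ u v
  · have h1 := rr_sq h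
    unfold gd at h1
    rw [Fin.sum_univ_two]
    generalize coord α = a at *
    generalize coord β = b at *
    fin_cases j <;> fin_cases l <;> simp [cm2]
    · linear_combination -h1
    · ring
    · ring
    · linear_combination -h1

end Vale.Agent.P247.LA

namespace Vale.Agent.P247.H74

section data

variable {θ : Fin 3 → Vale.Agent.P247.Form 2}

theorem hpair_of (hθ : IsHypersymplectic θ) (x : R4) :
    PairPos (Vale.Agent.P247.coord (θ 0 x)) (Vale.Agent.P247.coord (θ 1 x)) :=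
  ((def3_iff _).1 (hθ.def3 x)).1

theorem hPP_of (hθ : IsHypersymplectic θ) (x : R4) : LA.PP (θ 0 x) (θ 1 x) := by
  intro s t hst
  have := (hpair_of hθ x).comb_pos hst
  rw [wedge_eq_B, coord_comb]
  exact this.ne'

theorem hδ_of (hθ : IsHypersymplectic θ) (x : R4) (s t : ℝ) :
    wedge (s • θ 0 x + t • θ 1 x + θ 2 x) (s • θ 0 x + t • θ 1 x + θ 2 x) ≠ 0 := by
  have h2 := hθ.def3 x ![s, t, 1] (by
    intro h
    have := congrFun h 2
    simp at this)
  simp only [Fin.sum_univ_three] at h2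
  have h3 : (![s, t, 1] : Fin 3 → ℝ) 0 • θ 0 x + (![s, t, 1] : Fin 3 → ℝ) 1 • θ 1 x
    + (![s, t, 1] : Fin 3 → ℝ) 2 • θ 2 x = s • θ 0 x + t • θ 1 x + θ 2 x := by
    simp
  rw [h3] at h2
  exact h2.ne'

/-- the almost complex structure of a triple -/
def JT' (θ : Fin 3 → Vale.Agent.P247.Form 2) : R4 → R4 →L[ℝ] R4 := fun x =>
  LA.JJ (θ 0 x) (θ 1 x)

/-- the matrix of a triple -/
def cT' (θ : Fin 3 → Vale.Agent.P247.Form 2) : R4 → Fin 2 → Fin 2 → ℝ := fun x =>
  LA.cm2 (Vale.Agent.P247.coord (θ 0 x)) (Vale.Agent.P247.coord (θ 1 x))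

theorem hpj_of (hθ : IsHypersymplectic θ) (x : R4) :
    LA.PairJ (θ 0 x) (θ 1 x) (JT' θ x) (cT' θ x) := LA.pairJ (hpair_of hθ x).det

theorem sJ_of (hθ : IsHypersymplectic θ) : SP (JT' θ) := by
  have sa : SP (fun x => Vale.Agent.P247.coord (θ 0 x)) := (hθ.spc 0).1.coord
  have sb : SP (fun x => Vale.Agent.P247.coord (θ 1 x)) := (hθ.spc 1).1.coord
  have sr := LA.sp_rr sa sb fun x => (hpair_of hθ x).det
  exact LA.sp_mcl fun i j => sr.mul (LA.sp_Nm sa sb i j)

theorem sc_of (hθ : IsHypersymplectic θ) : SP (cT' θ) := by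
  have sa : SP (fun x => Vale.Agent.P247.coord (θ 0 x)) := (hθ.spc 0).1.coord
  have sb : SP (fun x => Vale.Agent.P247.coord (θ 1 x)) := (hθ.spc 1).1.coord
  have sr := LA.sp_rr sa sb fun x => (hpair_of hθ x).det
  have saa := sr.mul (LA.sp_B sa sa)
  have sab := sr.mul (LA.sp_B sa sb)
  have sbb := sr.mul (LA.sp_B sb sb)
  have sc : ∀ j k, SP (fun x => cT' θ x j k) := by
    intro j k
    fin_cases j <;> fin_cases k
    · exact sab.neg
    · exact saa
    · exact sbb.neg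
    · exact sab
  exact ⟨contDiff_pi.2 fun j => contDiff_pi.2 fun k => (sc j k).1,
    fun n x => funext fun j => funext fun k => (sc j k).2 n x⟩

theorem hsign_of (hθ : IsHypersymplectic θ) :
    ∃ C2 : CForm, ∀ x u, u ≠ 0 → 0 < C2.val x u (JT' θ x u) := by
  have hne : ∀ x (u : R4), u ≠ 0 → θ 2 x ![u, JT' θ x u] ≠ 0 := fun x u hu =>
    (hpj_of hθ x).tame (hPP_of hθ x) (hδ_of hθ x) hu
  have hcont : Continuous fun q : R4 × R4 => θ 2 q.1 ![q.2, JT' θ q.1 q.2] := by
    have h2 : (fun q : R4 × R4 => θ 2 q.1 ![q.2, JT' θ q.1 q.2]) = fun q : R4 × R4 =>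
        ∑ i, ∑ j, q.2 i * (JT' θ q.1 q.2) j * comp (θ 2 q.1) i j := by
      funext q
      exact apply_eq _ _ _
    rw [h2]
    have hJc : Continuous fun q : R4 × R4 => JT' θ q.1 q.2 :=
      ((sJ_of hθ).continuous.comp continuous_fst).clm_apply continuous_snd
    refine continuous_finsetSum _ fun i _ => continuous_finsetSum _ fun j _ => ?_
    exact (((continuous_apply i).comp continuous_snd).mul
      ((continuous_apply j).comp hJc)).mul
        ((((hθ.spc 2).1.comp2 i j).continuous).comp continuous_fst)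
  have hconn : IsPreconnected ((univ : Set R4) ×ˢ ({0}ᶜ : Set R4)) := by
    refine isPreconnected_univ.prod ?_
    refine (isConnected_compl_singleton_of_one_lt_rank ?_ 0).isPreconnected
    simp
  have himg := hconn.image _ hcont.continuousOn
  have hall : (∀ x (u : R4), u ≠ 0 → 0 < θ 2 x ![u, JT' θ x u]) ∨
      (∀ x (u : R4), u ≠ 0 → θ 2 x ![u, JT' θ x u] < 0) := by
    by_contra hcon
    push Not at hcon
    obtain ⟨⟨x, u, hu, hxu⟩, ⟨y, v, hv, hyv⟩⟩ := hcon
    have m1 : θ 2 x ![u, JT' θ x u] ∈ (fun q : R4 × R4 => θ 2 q.1 ![q.2, JT' θ q.1 q.2]) ''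
        ((univ : Set R4) ×ˢ ({0}ᶜ : Set R4)) := ⟨(x, u), ⟨trivial, hu⟩, rfl⟩
    have m2 : θ 2 y ![v, JT' θ y v] ∈ (fun q : R4 × R4 => θ 2 q.1 ![q.2, JT' θ q.1 q.2]) ''
        ((univ : Set R4) ×ˢ ({0}ᶜ : Set R4)) := ⟨(y, v), ⟨trivial, hv⟩, rfl⟩
    obtain ⟨q, hq, hq0⟩ := himg.Icc_subset m1 m2 ⟨hxu, hyv⟩
    exact hne q.1 q.2 hq.2 hq0
  rcases hall with hpos | hneg
  · obtain ⟨C2, hC2, -⟩ := exists_cform (hθ.spc 2)
    exact ⟨C2, fun x u hu => by rw [hC2]; exact hpos x u hu⟩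
  · obtain ⟨C2, hC2, -⟩ := exists_cform ((hθ.spc 2).smul (-1))
    refine ⟨C2, fun x u hu => ?_⟩
    rw [hC2]
    have h3 : (((-1 : ℝ) • θ 2 x : Form2)) ![u, JT' θ x u] = -(θ 2 x ![u, JT' θ x u]) := by
      show (-1 : ℝ) * θ 2 x ![u, JT' θ x u] = _
      ring
    rw [h3]
    linarith [hneg x u hu]

theorem kne_of (hθ : IsHypersymplectic θ) {C0 : CForm}
    (hk0 : ∀ u v, C0.κ u v = Vale.Agent.P247.mean (θ 0) ![u, v])
    (hcls0 : C0.κ (e 2) (e 3) = 0) :
    C0.κ (e 2) (e 0) * C0.κ (e 3) (e 1) - C0.κ (e 2) (e 1) * C0.κ (e 3) (e 0) ≠ 0 := by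
  have hw := (def3_mean hθ).wedge_pos 0
  rw [hk0] at hcls0
  have c23 : comp (Vale.Agent.P247.mean (θ 0)) 2 3 = 0 := hcls0
  simp only [wedge_def, c23] at hw
  rw [hk0, hk0, hk0, hk0]
  have g20 : (Vale.Agent.P247.mean (θ 0)) ![e 2, e 0] = -comp (Vale.Agent.P247.mean (θ 0)) 0 2 :=
    comp_swap _ 0 2
  have g31 : (Vale.Agent.P247.mean (θ 0)) ![e 3, e 1] = -comp (Vale.Agent.P247.mean (θ 0)) 1 3 :=
    comp_swap _ 1 3
  have g21 : (Vale.Agent.P247.mean (θ 0)) ![e 2, e 1] = -comp (Vale.Agent.P247.mean (θ 0)) 1 2 :=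
    comp_swap _ 1 2
  have g30 : (Vale.Agent.P247.mean (θ 0)) ![e 3, e 0] = -comp (Vale.Agent.P247.mean (θ 0)) 0 3 :=
    comp_swap _ 0 3
  rw [g20, g31, g21, g30]
  intro h
  nlinarith [h, hw]

/-- the data of a definite triple -/
theorem data_of_triple (hθ : IsHypersymplectic θ)
    {f : P2 → R4} (hf : ContDiff ℝ ∞ f) (hp : Per f)
    (h0 : ∀ p, θ 0 (phi f p) ![ds (phi f) p, dt (phi f) p] = 0)
    (h1 : ∀ p, θ 1 (phi f p) ![ds (phi f) p, dt (phi f) p] = 0) :
    ∃ D : Data, (∀ x u v, (D.η 0).val x u v = θ 0 x ![u, v]) ∧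
      ∀ x u v, (D.η 1).val x u v = θ 1 x ![u, v] := by
  obtain ⟨C0, hC0, hk0⟩ := exists_cform (hθ.spc 0)
  obtain ⟨C1, hC1, hk1⟩ := exists_cform (hθ.spc 1)
  obtain ⟨C2, hC2⟩ := hsign_of hθ
  have hcls0 : C0.κ (e 2) (e 3) = 0 := period_zero C0 hf hp fun p => by rw [hC0]; exact h0 p
  have hcls1 : C1.κ (e 2) (e 3) = 0 := period_zero C1 hf hp fun p => by rw [hC1]; exact h1 p
  refine ⟨{ J := JT' θ, J_smooth := (sJ_of hθ).1, J_per := (sJ_of hθ).2,
            J_sq := fun x u => (hpj_of hθ x).sq (hPP_of hθ x).left u,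
            η := ![C0, C1], om := C2, c := cT' θ, c_smooth := (sc_of hθ).1,
            c_per := (sc_of hθ).2,
            η_J := ?_, nd := ?_, c_sq := fun x => (hpj_of hθ x).c2, tame := hC2, cls := ?_,
            kne := kne_of hθ hk0 hcls0 }, fun x u v => hC0 x u v, fun x u v => hC1 x u v⟩
  · intro j x u v
    rw [Fin.sum_univ_two]
    fin_cases j
    · show C0.val x u (JT' θ x v) = cT' θ x 0 0 * C0.val x u v + cT' θ x 0 1 * C1.val x u v
      rw [hC0, hC0, hC1]
      exact (hpj_of hθ x).h0 u v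
    · show C1.val x u (JT' θ x v) = cT' θ x 1 0 * C0.val x u v + cT' θ x 1 1 * C1.val x u v
      rw [hC0, hC1, hC1]
      exact (hpj_of hθ x).h1 u v
  · intro x u v hu h
    have e0 := h 0
    have e1 := h 1
    change C0.val x u v = 0 at e0
    change C1.val x u v = 0 at e1
    rw [hC0] at e0
    rw [hC1] at e1
    exact (hpj_of hθ x).nd (hPP_of hθ x) hu e0 e1
  · intro j
    fin_cases j
    · exact hcls0
    · exact hcls1

end data

/-- the linear map of an integral matrix -/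
def AmL (A : Matrix (Fin 4) (Fin 4) ℤ) : R4 →L[ℝ] R4 :=
  (Matrix.mulVecLin (A.map (Int.cast : ℤ → ℝ))).toContinuousLinearMap

theorem AmL_apply (A : Matrix (Fin 4) (Fin 4) ℤ) (x : R4) : AmL A x = Am A x := rfl

theorem AmL_det (A : Matrix (Fin 4) (Fin 4) ℤ) (hA : A.det = 1) : (AmL A).det = 1 := by
  have h1 : (AmL A).det = (A.map (Int.cast : ℤ → ℝ)).det := by
    show LinearMap.det (Matrix.mulVecLin (A.map (Int.cast : ℤ → ℝ))) = _
    rw [← Matrix.toLin'_apply', LinearMap.det_toLin']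
  rw [h1]
  have h2 := (Int.castRingHom ℝ).map_det A
  rw [hA] at h2
  simpa using h2.symm

theorem am_tmap (A : Matrix (Fin 4) (Fin 4) ℤ) :
    Vale.Agent.P247.TMap (Am A) (AmL A) (fun _ => 0) := by
  refine ⟨SP.const 0, fun x => ?_, fun n => ⟨A.mulVec n, ?_⟩⟩
  · rw [add_zero]; rfl
  · show (A.map (Int.cast : ℤ → ℝ)).mulVec (iv n) = iv (A.mulVec n)
    funext i
    simp [iv, Matrix.mulVec, dotProduct]

theorem LA : LA_statement := by
  intro w hw b c hbc A hA f hf hp h0 h1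
  obtain ⟨M, M', hM, hM0, hM1⟩ := exists_matrix hbc
  have hw' : IsHypersymplectic w := (stmt_hypersymplectic w).1 hw
  have hv : IsHypersymplectic (act M w) := isHypersymplectic_act hM hw'
  have hfd : ∀ x, fderiv ℝ (Am A) x = AmL A := fun x => (AmL A).fderiv
  have hdet : ∀ x, 0 < (fderiv ℝ (Am A) x).det := by
    intro x
    rw [hfd, AmL_det A hA]
    exact one_pos
  have hθ := hypersymplectic_pbk (am_tmap A) hdet hv
  have hval : ∀ (d : Fin 3 → ℝ) (k : Fin 3), (∀ j, M k j = d j) → ∀ x u v,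
      pbk (Am A) (act M w k) x ![u, v] = comb w d A x u v := by
    intro d k hk x u v
    have e1 : pbk (Am A) (act M w k) x ![u, v] =
        act M w k (Am A x) ![fderiv ℝ (Am A) x u, fderiv ℝ (Am A) x v] := pullback_apply _ _ _ _
    rw [e1, hfd]
    simp only [act, hk, comb, Stmt.val, ContinuousAlternatingMap.sum_apply,
      ContinuousAlternatingMap.smul_apply, smul_eq_mul]
    rfl
  obtain ⟨D, hD0, hD1⟩ := data_of_triple hθ hf hp
    (fun p => by rw [hval b 0 hM0]; exact h0 p) (fun p => by rw [hval c 1 hM1]; exact h1 p)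
  exact ⟨D, fun x u v => by rw [hD0, hval b 0 hM0], fun x u v => by rw [hD1, hval c 1 hM1]⟩

end Vale.Agent.P247.H74
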