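import Vale.Agent.P247.H74.LA.Ker
import Vale.Agent.P247.H74.Sta

/-!
# P247, package LA: periods over the torus
-/

open scoped ContDiff
open Set MeasureTheory Filter Topology

noncomputable section

namespace Vale.Agent.P247.H74

/-- a closed periodic two-form as a `CForm` -/
theorem exists_cform {α : Vale.Agent.P247.Form 2} (hα : SPC α) :
    ∃ C : CForm, (∀ x u v, C.val x u v = α x ![u, v]) ∧
      ∀ u v, C.κ u v = Vale.Agent.P247.mean α ![u, v] := by
  obtain ⟨η, hη, h⟩ := sub_mean_exact hα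
  have hs : SP (fun x => LA.lin1 (η x)) := hη.clm LA.lin1
  have hd : ∀ x, fderiv ℝ (fun x => LA.lin1 (η x)) x = LA.lin1.comp (fderiv ℝ η x) := by
    intro x
    exact (LA.lin1.hasFDerivAt.comp x (hη.differentiable x).hasFDerivAt).fderiv
  refine ⟨⟨LA.bil (Vale.Agent.P247.mean α), fun u => ?_, fun x => LA.lin1 (η x), hs.1, hs.2⟩,
    fun x u v => ?_, fun u v => ?_⟩
  · rw [LA.bil_apply, apply_self]
  · have h1 : α x ![u, v] - Vale.Agent.P247.mean α ![u, v] = extDeriv η x ![u, v] :=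
      congrArg (fun β : Form2 => β ![u, v]) (h x)
    rw [extDeriv_one_apply] at h1
    have h2 : ∀ u v, (fderiv ℝ (fun x => LA.lin1 (η x)) x u) v = fderiv ℝ η x u ![v] := by
      intro u v
      rw [hd]
      exact LA.lin1_apply _ _
    simp only [CForm.val]
    rw [h2, h2, LA.bil_apply]
    linarith
  · exact LA.bil_apply _ _ _

/-- projection to the last two coordinates -/
def pr : R4 →L[ℝ] P2 :=
  (ContinuousLinearMap.proj 2 : R4 →L[ℝ] ℝ).prod (ContinuousLinearMap.proj 3 : R4 →L[ℝ] ℝ)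

theorem sp_pr {P : P2 → ℝ} (hP : ContDiff ℝ ∞ P) (hp : Per P) : SP (fun x : R4 => P (pr x)) := by
  refine ⟨hP.comp pr.contDiff, fun n x => ?_⟩
  exact hp (n 2) (n 3) (pr x)

theorem pdv_pr {P : P2 → ℝ} (hP : ContDiff ℝ ∞ P) (x : R4) (k : Fin 4) :
    pdv k (fun x : R4 => P (pr x)) x = fderiv ℝ P (pr x) (pr (e k)) := by
  have hd : Differentiable ℝ P := hP.differentiable (by simp)
  have h1 := ((hd (pr x)).hasFDerivAt.comp x pr.hasFDerivAt).fderiv
  have h2 : (P ∘ pr) = fun x : R4 => P (pr x) := rfl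
  rw [h2] at h1
  rw [pdv, h1]
  rfl

/-- a constant which is a divergence of periodic functions vanishes -/
theorem const_div {P Q : P2 → ℝ} (hP : ContDiff ℝ ∞ P) (hp : Per P) (hQ : ContDiff ℝ ∞ Q)
    (hq : Per Q) {k : ℝ} (h : ∀ p, k + ds P p + dt Q p = 0) : k = 0 := by
  have s1 := sp_pr hP hp
  have s2 := sp_pr hQ hq
  have e2 : pr (e 2) = (1, 0) := by
    simp [pr, e]
  have e3 : pr (e 3) = (0, 1) := by
    simp [pr, e]
  have h1 : (fun x : R4 => k + pdv 2 (fun x : R4 => P (pr x)) x + pdv 3 (fun x : R4 => Q (pr x)) x)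
      = fun _ => 0 := by
    funext x
    rw [pdv_pr hP, pdv_pr hQ, e2, e3]
    exact h (pr x)
  have h2 := congrArg Vale.Agent.P247.mean h1
  rw [mean_const, mean_add ((SP.const k).add (s1.pdv 2)) (s2.pdv 3),
    mean_add (SP.const k) (s1.pdv 2), mean_pdv s1, mean_pdv s2, mean_const] at h2
  simpa using h2

section
variable {E F : Type*} [NormedAddCommGroup E] [NormedSpace ℝ E]
  [NormedAddCommGroup F] [NormedSpace ℝ F]

theorem fderiv_clm_app {L : P2 → E →L[ℝ] F} {G : P2 → E} (hL : Differentiable ℝ L)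
    (hG : Differentiable ℝ G) (p v : P2) :
    fderiv ℝ (fun p => L p (G p)) p v = (fderiv ℝ L p v) (G p) + L p (fderiv ℝ G p v) := by
  rw [((hL p).hasFDerivAt.clm_apply (hG p).hasFDerivAt).fderiv]
  simp [add_comm]

theorem fderiv_clm_comp (κ : E →L[ℝ] F) {G : P2 → E} (hG : Differentiable ℝ G) (p v : P2) :
    fderiv ℝ (fun p => κ (G p)) p v = κ (fderiv ℝ G p v) := by
  have := (κ.hasFDerivAt.comp p (hG p).hasFDerivAt).fderiv
  have h2 : (κ ∘ G) = fun p => κ (G p) := rfl
  rw [h2] at this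
  rw [this]
  rfl

theorem fderiv_swap {G : P2 → E} (hG : ContDiff ℝ ∞ G) (p v w : P2) :
    fderiv ℝ (fun q => fderiv ℝ G q v) p w = fderiv ℝ (fun q => fderiv ℝ G q w) p v := by
  have h1 : ContDiff ℝ ∞ (fderiv ℝ G) := hG.fderiv_right (by norm_cast)
  have h2 : Differentiable ℝ (fderiv ℝ G) := h1.differentiable (by simp)
  have h3 : ∀ v w : P2, fderiv ℝ (fun q => fderiv ℝ G q v) p w = fderiv ℝ (fderiv ℝ G) p w v := by
    intro v w
    have := fderiv_clm_app (L := fderiv ℝ G) (G := fun _ => v) h2 (differentiable_const v) p w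
    rw [this]
    simp
  rw [h3, h3]
  have h4 : IsSymmSndFDerivAt ℝ G p := (hG.contDiffAt).isSymmSndFDerivAt (by
    simp only [minSmoothness_of_isRCLikeNormedField]
    exact two_le_infty)
  exact (h4.eq w v)

theorem per_fderiv {G : P2 → E} (hG : Per G) (v : P2) : Per (fun q => fderiv ℝ G q v) := by
  intro m n p
  have h1 : (fun q : P2 => G (q + ((m : ℝ), (n : ℝ)))) = G := funext fun q => hG m n q
  have h2 : fderiv ℝ (fun q : P2 => G (q + ((m : ℝ), (n : ℝ)))) p =
      fderiv ℝ G (p + ((m : ℝ), (n : ℝ))) := fderiv_comp_add_right _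
  rw [h1] at h2
  show fderiv ℝ G (p + ((m : ℝ), (n : ℝ))) v = fderiv ℝ G p v
  rw [h2]

theorem contDiff_fderiv_app {G : P2 → E} (hG : ContDiff ℝ ∞ G) (v : P2) :
    ContDiff ℝ ∞ (fun q => fderiv ℝ G q v) :=
  (hG.fderiv_right (by norm_cast)).clm_apply contDiff_const

end

/-- `lin` as a continuous linear map -/
def linL : P2 →L[ℝ] R4 :=
  (ContinuousLinearMap.fst ℝ ℝ ℝ).smulRight (e 2) + (ContinuousLinearMap.snd ℝ ℝ ℝ).smulRight (e 3)

theorem lin_eq (p : P2) : lin p = linL p := by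
  funext i
  simp only [lin, linL, _root_.add_apply, ContinuousLinearMap.smulRight_apply,
    ContinuousLinearMap.coe_fst', ContinuousLinearMap.coe_snd', Pi.add_apply, Pi.smul_apply, e,
    smul_eq_mul]
  fin_cases i <;> simp

theorem phi_eq (f : P2 → R4) : phi f = fun p => linL p + f p := by
  funext p
  rw [phi, lin_eq]

theorem phi_contDiff {f : P2 → R4} (hf : ContDiff ℝ ∞ f) : ContDiff ℝ ∞ (phi f) := by
  rw [phi_eq]
  exact linL.contDiff.add hf

theorem fderiv_phi {f : P2 → R4} (hf : ContDiff ℝ ∞ f) (p v : P2) :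
    fderiv ℝ (phi f) p v = linL v + fderiv ℝ f p v := by
  have hd : Differentiable ℝ f := hf.differentiable (by simp)
  have h1 : fderiv ℝ (fun p => linL p + f p) p = linL + fderiv ℝ f p :=
    (linL.hasFDerivAt.add (hd p).hasFDerivAt).fderiv
  rw [phi_eq, h1]
  rfl

theorem linL_ds : linL (1, 0) = e 2 := by
  simp [linL]

theorem linL_dt : linL (0, 1) = e 3 := by
  simp [linL]

theorem phi_shift {f : P2 → R4} (hp : Per f) (m n : ℤ) (p : P2) :
    phi f (p.1 + m, p.2 + n) = fun i => phi f p i + ((![0, 0, m, n] : Fin 4 → ℤ) i : ℝ) := by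
  funext i
  simp only [phi, lin, Pi.add_apply, hp m n p]
  fin_cases i <;> simp <;> ring

/-- the period of a closed form over the torus -/
theorem period_zero (C : CForm) {f : P2 → R4} (hf : ContDiff ℝ ∞ f) (hp : Per f)
    (h : ∀ p, C.val (phi f p) (ds (phi f) p) (dt (phi f) p) = 0) : C.κ (e 2) (e 3) = 0 := by
  have df : Differentiable ℝ f := hf.differentiable (by simp)
  have hφ := phi_contDiff hf
  have dφ : Differentiable ℝ (phi f) := hφ.differentiable (by simp)
  have sds : ContDiff ℝ ∞ (ds f) := contDiff_fderiv_app hf _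
  have sdt : ContDiff ℝ ∞ (dt f) := contDiff_fderiv_app hf _
  have sdsφ : ContDiff ℝ ∞ (ds (phi f)) := contDiff_fderiv_app hφ _
  have sdtφ : ContDiff ℝ ∞ (dt (phi f)) := contDiff_fderiv_app hφ _
  have dds := sds.differentiable (by simp)
  have ddt := sdt.differentiable (by simp)
  have ddsφ := sdsφ.differentiable (by simp)
  have ddtφ := sdtφ.differentiable (by simp)
  have pds : Per (ds f) := per_fderiv hp _
  have pdt : Per (dt f) := per_fderiv hp _
  have eds : ∀ p, ds (phi f) p = e 2 + ds f p := fun p => by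
    show fderiv ℝ (phi f) p (1, 0) = _
    rw [fderiv_phi hf, linL_ds]; rfl
  have edt : ∀ p, dt (phi f) p = e 3 + dt f p := fun p => by
    show fderiv ℝ (phi f) p (0, 1) = _
    rw [fderiv_phi hf, linL_dt]; rfl
  set L : P2 → R4 →L[ℝ] ℝ := fun p => C.lam (phi f p) with hL
  have sL : ContDiff ℝ ∞ L := C.lam_smooth.comp hφ
  have dL := sL.differentiable (by simp)
  have pL : Per L := by
    intro m n p
    simp only [hL]
    rw [phi_shift hp]
    exact C.lam_per _ _
  have fL : ∀ p v, fderiv ℝ L p v = fderiv ℝ C.lam (phi f p) (fderiv ℝ (phi f) p v) := by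
    intro p v
    have dl : Differentiable ℝ C.lam := C.lam_smooth.differentiable (by simp)
    have := ((dl (phi f p)).hasFDerivAt.comp p (dφ p).hasFDerivAt).fderiv
    have h2 : (C.lam ∘ phi f) = L := rfl
    rw [h2] at this
    rw [this]
    rfl
  -- the two potentials
  set P : P2 → ℝ := fun p => C.κ (f p) (e 3) + (1 / 2) * C.κ (f p) (dt f p) + L p (dt (phi f) p)
    with hPdef
  set Q : P2 → ℝ := fun p => C.κ (e 2) (f p) - (1 / 2) * C.κ (f p) (ds f p) - L p (ds (phi f) p)
    with hQdef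
  have sκ : ContDiff ℝ ∞ (fun p => C.κ (f p)) := C.κ.contDiff.comp hf
  have dκ := sκ.differentiable (by simp)
  have t1 : ContDiff ℝ ∞ (fun p => C.κ (f p) (e 3)) := sκ.clm_apply contDiff_const
  have t2 : ContDiff ℝ ∞ (fun p => C.κ (f p) (dt f p)) := sκ.clm_apply sdt
  have t3 : ContDiff ℝ ∞ (fun p => L p (dt (phi f) p)) := sL.clm_apply sdtφ
  have t4 : ContDiff ℝ ∞ (fun p => C.κ (e 2) (f p)) := (C.κ (e 2)).contDiff.comp hf
  have t5 : ContDiff ℝ ∞ (fun p => C.κ (f p) (ds f p)) := sκ.clm_apply sds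
  have t6 : ContDiff ℝ ∞ (fun p => L p (ds (phi f) p)) := sL.clm_apply sdsφ
  have sP : ContDiff ℝ ∞ P := (t1.add (contDiff_const.mul t2)).add t3
  have sQ : ContDiff ℝ ∞ Q := (t4.sub (contDiff_const.mul t5)).sub t6
  have pP : Per P := by
    intro m n p
    simp only [hPdef, edt, hp m n p, pdt m n p, pL m n p]
  have pQ : Per Q := by
    intro m n p
    simp only [hQdef, eds, hp m n p, pds m n p, pL m n p]
  refine const_div sP pP sQ pQ fun p => ?_
  have d1 := t1.differentiable (by simp)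
  have d2 := t2.differentiable (by simp)
  have d3 := t3.differentiable (by simp)
  have d4 := t4.differentiable (by simp)
  have d5 := t5.differentiable (by simp)
  have d6 := t6.differentiable (by simp)
  have hdP : ds P p = C.κ (ds f p) (e 3) + (1 / 2) * (C.κ (ds f p) (dt f p)
      + C.κ (f p) (fderiv ℝ (dt f) p (1, 0))) + ((fderiv ℝ C.lam (phi f p) (ds (phi f) p))
        (dt (phi f) p) + L p (fderiv ℝ (dt (phi f)) p (1, 0))) := by
    show fderiv ℝ P p (1, 0) = _
    have k1 : fderiv ℝ P p = fderiv ℝ (fun p => C.κ (f p) (e 3)) p +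
        (1 / 2 : ℝ) • fderiv ℝ (fun p => C.κ (f p) (dt f p)) p
          + fderiv ℝ (fun p => L p (dt (phi f) p)) p :=
      (((d1 p).hasFDerivAt.add ((d2 p).hasFDerivAt.const_mul (1 / 2 : ℝ))).add
        (d3 p).hasFDerivAt).fderiv
    rw [k1]
    simp only [_root_.add_apply, _root_.smul_apply, smul_eq_mul]
    rw [fderiv_clm_app dκ (differentiable_const (e 3)), fderiv_clm_app dκ ddt,
      fderiv_clm_app dL ddtφ, fL, fderiv_clm_comp C.κ df]
    simp only [fderiv_fun_const, Pi.zero_apply, _root_.zero_apply, map_zero, add_zero]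
    rfl
  have hdQ : dt Q p = C.κ (e 2) (dt f p) - (1 / 2) * (C.κ (dt f p) (ds f p)
      + C.κ (f p) (fderiv ℝ (ds f) p (0, 1))) - ((fderiv ℝ C.lam (phi f p) (dt (phi f) p))
        (ds (phi f) p) + L p (fderiv ℝ (ds (phi f)) p (0, 1))) := by
    show fderiv ℝ Q p (0, 1) = _
    have k1 : fderiv ℝ Q p = fderiv ℝ (fun p => C.κ (e 2) (f p)) p -
        (1 / 2 : ℝ) • fderiv ℝ (fun p => C.κ (f p) (ds f p)) p
          - fderiv ℝ (fun p => L p (ds (phi f) p)) p :=
      (((d4 p).hasFDerivAt.sub ((d5 p).hasFDerivAt.const_mul (1 / 2 : ℝ))).sub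
        (d6 p).hasFDerivAt).fderiv
    rw [k1]
    simp only [_root_.sub_apply, _root_.smul_apply, smul_eq_mul]
    rw [fderiv_clm_comp (C.κ (e 2)) df, fderiv_clm_app dκ dds,
      fderiv_clm_app dL ddsφ, fL, fderiv_clm_comp C.κ df]
    rfl
  have sw1 : fderiv ℝ (dt f) p (1, 0) = fderiv ℝ (ds f) p (0, 1) := fderiv_swap hf p _ _
  have sw2 : fderiv ℝ (dt (phi f)) p (1, 0) = fderiv ℝ (ds (phi f)) p (0, 1) :=
    fderiv_swap hφ p _ _
  have skew : ∀ u v, C.κ v u = - C.κ u v := by
    intro u v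
    have h1 := C.κ_self (u + v)
    simp only [map_add, _root_.add_apply, C.κ_self] at h1
    linarith
  have h1 := h p
  simp only [CForm.val] at h1
  rw [hdP, hdQ, sw1, sw2, skew (ds f p) (dt f p)]
  have h2 : C.κ (ds (phi f) p) (dt (phi f) p) = C.κ (e 2) (e 3) + C.κ (e 2) (dt f p)
      + C.κ (ds f p) (e 3) + C.κ (ds f p) (dt f p) := by
    rw [eds, edt]
    simp only [map_add, _root_.add_apply]
    ring
  rw [h2] at h1
  linarith

end Vale.Agent.P247.H74
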